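import Vale.Agent.P323.Final

open Vale.Agent.P323

universe u

/-- The partition principle and the axiom of choice in permutation models of ZFA. -/
theorem Vale.Agent.Results.P323.PermModelsB.result :
    (∀ (G : Type u) [Group G] (F : NormalFilter G), (WOChoice F ∨ PP F) →
      ((∃ n : ℕ, 2 ≤ n ∧ ChoiceN F n) ∨
        (∃ K : Subgroup G, F.mem K ∧ ∀ g ∈ K, IsOfFinOrder g)) → AC F) ∧
    (∀ (G : Type u) [Group G] (F : NormalFilter G), PP F →
      ∀ X : MSet F, LinOrderable X → WellOrderable X) ∧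
    (∀ (G : Type u) [Group G] (F : NormalFilter G), SmallIndex F → (PP F ↔ AC F)) ∧
    (∀ (G A : Type u) [Group G] [MulAction G A] (I : SuppIdeal G A),
      ((∀ e, I.mem e → e.Finite) ∧ Cardinal.mk A < Cardinal.continuum.{u}) ∨
        (∃ r : A → A → Prop, IsStrictTotalOrder A r ∧
          ∀ (g : G) (a b : A), r a b → r (g • a) (g • b)) ∨
        (∀ a b : A, ∃ g : G, g • a = b ∧ g • b = a ∧ ∀ c, c ≠ a → c ≠ b → g • c = c) →
      (PP (suppFilter I) ↔ AC (suppFilter I))) ∧
    (∀ (G A : Type u) [Group G] [MulAction G A] (I : SuppIdeal G A), PP (suppFilter I) →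
      ∃ C : Set A, I.mem C ∧ ∀ P : Subgroup G, (suppFilter I).mem P →
        (∀ g ∈ P, ∀ a ∈ C, g • a = a) →
          ∃ e : Set A, I.mem e ∧ ∀ g, g ∈ P ↔ ∀ a ∈ e, g • a = a) :=
  final
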